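import Vale.Agent.P224.PO.IdX
import Vale.Agent.P224.PO.C25.Rows
import Vale.Agent.P224.PO.C25.El
import Vale.Agent.P224.PO.C25.DF0
import Vale.Agent.P224.PO.C25.DF1

/-!
The identity of the certificate in dimension 25 and the positivity of its left side.
-/

namespace Vale.Agent.P224.PO.C25

open Vale.Agent.P224.UE Vale.Agent.P224.POS Vale.Agent.P224.PO
open scoped RealInnerProductSpace

noncomputable section

/-- the blocks with the multiplier number 0 -/
def B1 : List BlkX := [⟨els0, 1152921504606846976, N0⟩,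
  ⟨els1, 576460752303423488, N1⟩,
  ⟨els2, 576460752303423488, N2⟩,
  ⟨els3, 576460752303423488, N3⟩]

/-- the blocks with the multiplier number 1 -/
def Br : List BlkX := [⟨els4, 576460752303423488, N4⟩,
  ⟨els5, 576460752303423488, N5⟩,
  ⟨els6, 1152921504606846976, N6⟩,
  ⟨els7, 576460752303423488, N7⟩]

/-- the blocks with the multiplier number 2 -/
def S1 : List BlkX := [⟨els8, 2251799813685248, N8⟩,
  ⟨els9, 4503599627370496, N9⟩,
  ⟨els10, 4503599627370496, N10⟩]

/-- the blocks with the multiplier number 3 -/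
def Sr : List BlkX := [⟨els11, 2251799813685248, N11⟩,
  ⟨els12, 4503599627370496, N12⟩,
  ⟨els13, 4503599627370496, N13⟩]

/-- the integers replacing the first four variables (not powers of two: the kernel hashes a numeral
by its last 64 bits) -/
def Ms : List Nat := [
  Nat.add (Nat.pow 2 87) 1090297408444377839,
  Nat.add (Nat.pow 2 2657) 672893673074899541,
  Nat.add (Nat.pow 2 13963) 494586791774247929,
  Nat.add (Nat.pow 2 70493) 946030352018653745]

set_option maxRecDepth 100000 in
/-- **The identity**, checked by the kernel. -/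
theorem idM : chkX Ms (PE.sb sbH P) 8 tabH (mulX B1 Br S1 Sr) = true := by
  decide +kernel

lemma hB1 : GoodX B1 :=
  (goodX_cons psd0 (goodX_cons psd1 (goodX_cons psd2 (goodX_cons psd3 goodX_nil))))

lemma hBr : GoodX Br :=
  (goodX_cons psd4 (goodX_cons psd5 (goodX_cons psd6 (goodX_cons psd7 goodX_nil))))

lemma hS1 : GoodX S1 :=
  (goodX_cons psd8 (goodX_cons psd9 (goodX_cons psd10 goodX_nil)))

lemma hSr : GoodX Sr :=
  (goodX_cons psd11 (goodX_cons psd12 (goodX_cons psd13 goodX_nil)))

/-- **Positivity** of the left side on pair data with a vector of length at most `5 / 6`. -/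
theorem pos {E : Type*} [NormedAddCommGroup E] [InnerProductSpace ℝ E] {e x N y w : E}
    (he : ‖e‖ ^ 2 ≤ 25 / 36) (hx : ‖x‖ = 1) (hN : ‖N‖ = 1) (hy : ‖y‖ = 1) (hw : ‖w‖ = 1)
    (hxN : ⟪x, N⟫ = 0) (hyw : ⟪y, w⟫ = 0) (hs : ⟪x, y⟫ < 1) :
    0 ≤ PE.ev (vh (dv x N y w e)) P :=
  nonneg_of_chkX 8 (by norm_num) idM rfl hB1 hBr hS1 hSr he hx hN hy hw hxN hyw hs

/-- **The pointwise inequality of the certificate.** -/
theorem hpos {E : Type*} [NormedAddCommGroup E] [InnerProductSpace ℝ E] (e x N y w : E)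
    (he : ‖e‖ ^ 2 ≤ 25 / 36) (hx : ‖x‖ = 1) (hN : ‖N‖ = 1) (hy : ‖y‖ = 1) (hw : ‖w‖ = 1)
    (hxN : ⟪x, N⟫ = 0) (hyw : ⟪y, w⟫ = 0) (hs : ⟪x, y⟫ < 1) :
    0 ≤ Vale.Agent.P224.UE.W9 (2770769301995520 / 2770769301995520) (1347264799927200 / 2770769301995520) (-8543715578818560 / 2770769301995520) (4108075921192320 / 2770769301995520) (425090337376320 / 2770769301995520) (369413905321440 / 2770769301995520) (0 / 2770769301995520) (0 / 2770769301995520) (0 / 2770769301995520)
        (dv x N y w e)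
      + hsum 25 (rlH 2770769301995520 rows) (dv x N y w e) :=
  pos_of hs (pos he hx hN hy hw hxN hyw hs)

end

end Vale.Agent.P224.PO.C25
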